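import Vale.Agent.Lib.P002.G1Defs

namespace Vale.Agent.Lib.P002.H63

open Matrix
open Vale.Agent.Lib.P002

theorem diag_sub_castSucc {S : Type*} [CommRing S] (k : ℕ) (d e : Fin (k + 1) → S)
    (M : Matrix (Fin (k + 1)) (Fin (k + 1)) S) :
    (Matrix.diagonal d * M * Matrix.diagonal e).submatrix Fin.castSucc Fin.castSucc =
      Matrix.diagonal (fun i : Fin k => d i.castSucc) * M.submatrix Fin.castSucc Fin.castSucc *
        Matrix.diagonal (fun i : Fin k => e i.castSucc) := by
  ext i j
  rw [Matrix.submatrix_apply, Matrix.mul_diagonal, Matrix.diagonal_mul, Matrix.mul_diagonal,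
    Matrix.diagonal_mul, Matrix.submatrix_apply]

theorem diag_sub_succ {S : Type*} [CommRing S] (k : ℕ) (d e : Fin (k + 1) → S)
    (M : Matrix (Fin (k + 1)) (Fin (k + 1)) S) :
    (Matrix.diagonal d * M * Matrix.diagonal e).submatrix Fin.succ Fin.succ =
      Matrix.diagonal (fun i : Fin k => d i.succ) * M.submatrix Fin.succ Fin.succ *
        Matrix.diagonal (fun i : Fin k => e i.succ) := by
  ext i j
  rw [Matrix.submatrix_apply, Matrix.mul_diagonal, Matrix.diagonal_mul, Matrix.mul_diagonal,
    Matrix.diagonal_mul, Matrix.submatrix_apply]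

theorem lead_diag_mul {S : Type*} [CommRing S] : ∀ (k t : ℕ) (d e : Fin k → S)
    (M : Matrix (Fin k) (Fin k) S),
    lead t k (Matrix.diagonal d * M * Matrix.diagonal e) =
      (∏ j : Fin k, if j.val < t then d j * e j else 1) * lead t k M := by
  intro k
  induction k with
  | zero =>
    intro t d e M
    rw [lead_zero_size, lead_zero_size, Finset.univ_eq_empty, Finset.prod_empty, mul_one]
  | succ k ih =>
    intro t d e M
    rw [lead_succ, lead_succ]
    by_cases h : k + 1 ≤ t
    · rw [if_pos h, if_pos h, Matrix.det_mul, Matrix.det_mul, Matrix.det_diagonal,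
        Matrix.det_diagonal]
      have hprod : (∏ j : Fin (k + 1), if j.val < t then d j * e j else 1) =
          (∏ j : Fin (k + 1), d j) * ∏ j : Fin (k + 1), e j := by
        rw [← Finset.prod_mul_distrib]
        refine Finset.prod_congr rfl fun j _ => ?_
        rw [if_pos (lt_of_lt_of_le j.isLt h)]
      rw [hprod]
      ring
    · rw [if_neg h, if_neg h, diag_sub_castSucc, ih, Fin.prod_univ_castSucc]
      have hlast : ¬ (Fin.last k).val < t := by
        rw [Fin.val_last]
        omega
      rw [if_neg hlast, mul_one]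
      rfl

theorem prod_ite_succ {S : Type*} [CommRing S] (k t : ℕ) (f : Fin (k + 1) → S) :
    (∏ j : Fin (k + 1), if j.val < t + 1 then f j else 1) =
      f 0 * ∏ j : Fin k, if j.val < t then f j.succ else 1 := by
  rw [Fin.prod_univ_succ]
  have h0 : ((0 : Fin (k + 1)).val < t + 1) := by
    rw [Fin.val_zero]
    exact Nat.succ_pos t
  rw [if_pos h0]
  congr 1
  refine Finset.prod_congr rfl fun j _ => ?_
  by_cases hj : j.val < t
  · rw [if_pos hj, if_pos (by rw [Fin.val_succ]; omega)]
  · rw [if_neg hj, if_neg (by rw [Fin.val_succ]; omega)]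

theorem prod_ite_ne_zero (k t : ℕ) (f : Fin k → ℂ) (hf : ∀ i, f i ≠ 0) :
    (∏ j : Fin k, if j.val < t then f j else 1) ≠ 0 := by
  rw [Finset.prod_ne_zero_iff]
  intro j _
  by_cases hj : j.val < t
  · rw [if_pos hj]
    exact hf j
  · rw [if_neg hj]
    exact one_ne_zero

theorem g1Gen_diag_ne_zero : ∀ (k : ℕ) (d e : Fin k → ℂ) (M : Matrix (Fin k) (Fin k) ℂ),
    (∀ i, d i ≠ 0) → (∀ i, e i ≠ 0) → g1Gen k M ≠ 0 →
    g1Gen k (Matrix.diagonal d * M * Matrix.diagonal e) ≠ 0 := by
  intro k
  induction k with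
  | zero =>
    intro d e M _ _ _
    rw [g1Gen_zero]
    exact one_ne_zero
  | succ k ih =>
    intro d e M hd he hM
    rw [g1Gen_succ] at hM ⊢
    have hM1 := (mul_ne_zero_iff.mp hM).1
    have hM3 := (mul_ne_zero_iff.mp hM).2
    have hM2 := (mul_ne_zero_iff.mp hM1).2
    have hM0 := (mul_ne_zero_iff.mp hM1).1
    rw [Finset.prod_ne_zero_iff] at hM0 hM2
    have hf : ∀ i : Fin (k + 1), d i * e i ≠ 0 := fun i => mul_ne_zero (hd i) (he i)
    have hfs : ∀ i : Fin k, d i.succ * e i.succ ≠ 0 := fun i => hf i.succ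
    have hF : ∀ t : ℕ, (∏ j : Fin (k + 1), if j.val < t + 1 then d j * e j else 1) =
        (d 0 * e 0) * ∏ j : Fin k, if j.val < t then d j.succ * e j.succ else 1 :=
      fun t => prod_ite_succ k t (fun j => d j * e j)
    have hG : ∀ t : ℕ, (∏ j : Fin k, if j.val < t then d j.succ * e j.succ else 1) ≠ 0 :=
      fun t => prod_ite_ne_zero k t (fun j => d j.succ * e j.succ) hfs
    rw [diag_sub_succ]
    refine mul_ne_zero (mul_ne_zero ?_ ?_) ?_
    · rw [Finset.prod_ne_zero_iff]
      intro t ht
      rw [lead_diag_mul]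
      exact mul_ne_zero (prod_ite_ne_zero (k + 1) (t + 1) (fun j => d j * e j) hf) (hM0 t ht)
    · rw [Finset.prod_ne_zero_iff]
      intro i hi
      have hMi := hM2 i hi
      rw [lead_diag_mul, lead_diag_mul, lead_diag_mul, lead_diag_mul, hF i, hF (i + 1)]
      have key : (d 0 * e 0 * ∏ j : Fin k, if j.val < i then d j.succ * e j.succ else 1) *
            lead (i + 1) (k + 1) M *
            ((∏ j : Fin k, if j.val < i + 1 then d j.succ * e j.succ else 1) *
              lead (i + 1) k (M.submatrix Fin.succ Fin.succ)) -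
          (d 0 * e 0 * ∏ j : Fin k, if j.val < i + 1 then d j.succ * e j.succ else 1) *
            lead (i + 2) (k + 1) M *
            ((∏ j : Fin k, if j.val < i then d j.succ * e j.succ else 1) *
              lead i k (M.submatrix Fin.succ Fin.succ)) =
          (d 0 * e 0 * (∏ j : Fin k, if j.val < i then d j.succ * e j.succ else 1) *
            (∏ j : Fin k, if j.val < i + 1 then d j.succ * e j.succ else 1)) *
          (lead (i + 1) (k + 1) M * lead (i + 1) k (M.submatrix Fin.succ Fin.succ) -
            lead (i + 2) (k + 1) M * lead i k (M.submatrix Fin.succ Fin.succ)) := by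
        ring
      rw [key]
      exact mul_ne_zero (mul_ne_zero (mul_ne_zero (hf 0) (hG i)) (hG (i + 1))) hMi
    · exact ih (fun i => d i.succ) (fun i => e i.succ) (M.submatrix Fin.succ Fin.succ)
        (fun i => hd i.succ) (fun i => he i.succ) hM3

end Vale.Agent.Lib.P002.H63
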